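import Vale.Agent.Lib.P033A.Main

/-!
# P033: almost Hadamard circulant sign matrices of every large order

From ultraflat Littlewood polynomials of every large length.
-/

namespace Vale.Agent.P033A

open Finset Filter
open scoped ComplexConjugate

/-- one order `n`: from signs with `(1 - a) √n ≤ |P| ≤ (1 + a) √n` -/
theorem almost_at {n : ℕ} [NeZero n] {c a : ℝ} (ha0 : 0 < a) (ha1 : a ≤ 1) (ha2 : a ≤ c / 3)
    {s : ℕ → ℝ} (hx : ∀ x : ℝ,
      (1 - a) * Real.sqrt n ≤ ‖∑ k ∈ Finset.range n, (s k : ℂ) * P110F.e1 ((k : ℝ) * x)‖ ∧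
        ‖∑ k ∈ Finset.range n, (s k : ℂ) * P110F.e1 ((k : ℝ) * x)‖ ≤ (1 + a) * Real.sqrt n) :
    (∀ v : ZMod n → ℝ,
        (1 - c) * Real.sqrt n * Real.sqrt (∑ i, v i ^ 2) ≤
          Real.sqrt (∑ i, ((circ fun m : ZMod n => s m.val).mulVec v i) ^ 2) ∧
        Real.sqrt (∑ i, ((circ fun m : ZMod n => s m.val).mulVec v i) ^ 2) ≤
          (1 + c) * Real.sqrt n * Real.sqrt (∑ i, v i ^ 2)) ∧
      ∀ v : ZMod n → ℝ,
        Real.sqrt (∑ i, (((circ fun m : ZMod n => s m.val) *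
          (circ fun m : ZMod n => s m.val).transpose - (n : ℝ) • 1).mulVec v i) ^ 2) ≤
          c * n * Real.sqrt (∑ i, v i ^ 2) := by
  have hn1 : 1 ≤ n := Nat.one_le_iff_ne_zero.2 (NeZero.ne n)
  have hsn : 0 ≤ Real.sqrt n := Real.sqrt_nonneg _
  have hsq : Real.sqrt n ^ 2 = n := Real.sq_sqrt (Nat.cast_nonneg _)
  have hn0 : (0 : ℝ) < n := by exact_mod_cast hn1
  have hev : ∀ k : ZMod n, (1 - a) * Real.sqrt n ≤ ‖ev (fun m : ZMod n => s m.val) k‖ ∧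
      ‖ev (fun m : ZMod n => s m.val) k‖ ≤ (1 + a) * Real.sqrt n := by
    intro k
    rw [ev_eq]
    exact hx _
  refine ⟨fun v => ?_, fun v => ?_⟩
  · have h0 : 0 ≤ (1 - a) * Real.sqrt n := mul_nonneg (by linarith) hsn
    obtain ⟨h1, h2⟩ := circ_bounds h0 hev v
    have h3 := Real.sqrt_le_sqrt h1
    have h4 := Real.sqrt_le_sqrt h2
    rw [Real.sqrt_mul (sq_nonneg _), Real.sqrt_sq h0] at h3
    rw [Real.sqrt_mul (sq_nonneg _), Real.sqrt_sq (mul_nonneg (by linarith) hsn)] at h4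
    have h5 : 0 ≤ Real.sqrt (∑ i, v i ^ 2) := Real.sqrt_nonneg _
    have h6 : (1 - c) * Real.sqrt n ≤ (1 - a) * Real.sqrt n :=
      mul_le_mul_of_nonneg_right (by linarith) hsn
    have h7 : (1 + a) * Real.sqrt n ≤ (1 + c) * Real.sqrt n :=
      mul_le_mul_of_nonneg_right (by linarith) hsn
    exact ⟨(mul_le_mul_of_nonneg_right h6 h5).trans h3,
      h4.trans (mul_le_mul_of_nonneg_right h7 h5)⟩
  · have h1 : ∀ k : ZMod n, |‖ev (fun m : ZMod n => s m.val) k‖ ^ 2 - n| ≤ c * n := by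
      intro k
      obtain ⟨h2, h3⟩ := hev k
      have h4 : ((1 - a) * Real.sqrt n) ^ 2 ≤ ‖ev (fun m : ZMod n => s m.val) k‖ ^ 2 :=
        pow_le_pow_left₀ (mul_nonneg (by linarith) hsn) h2 2
      have h5 : ‖ev (fun m : ZMod n => s m.val) k‖ ^ 2 ≤ ((1 + a) * Real.sqrt n) ^ 2 :=
        pow_le_pow_left₀ (norm_nonneg _) h3 2
      rw [mul_pow, hsq] at h4 h5
      have h6 : (1 + a) ^ 2 ≤ 1 + c := by nlinarith
      have h7 : 1 - c ≤ (1 - a) ^ 2 := by nlinarith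
      have h8 := mul_le_mul_of_nonneg_right h6 hn0.le
      have h9 := mul_le_mul_of_nonneg_right h7 hn0.le
      rw [abs_le]
      constructor <;> linarith
    have h2 := Real.sqrt_le_sqrt (gram_bound h1 v)
    have hc : 0 ≤ c * n := mul_nonneg (by linarith) hn0.le
    rw [Real.sqrt_mul (sq_nonneg _), Real.sqrt_sq hc] at h2
    exact h2

/-- every large order -/
theorem every_order
    (hU : ∀ c : ℝ, 0 < c → ∀ᶠ N : ℕ in atTop, ∃ s : ℕ → ℝ, (∀ k, s k = 1 ∨ s k = -1) ∧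
      ∀ x : ℝ, (1 - c) * Real.sqrt N ≤
          ‖∑ k ∈ Finset.range N, (s k : ℂ) * P110F.e1 ((k : ℝ) * x)‖ ∧
        ‖∑ k ∈ Finset.range N, (s k : ℂ) * P110F.e1 ((k : ℝ) * x)‖ ≤ (1 + c) * Real.sqrt N)
    (c : ℝ) (hc : 0 < c) : ∃ n₀ : ℕ, ∀ (n : ℕ) [NeZero n], n₀ ≤ n → ∃ h : ZMod n → ℝ,
      (∀ j, h j = 1 ∨ h j = -1) ∧
      (∀ v : ZMod n → ℝ,
        (1 - c) * Real.sqrt n * Real.sqrt (∑ i, v i ^ 2) ≤
          Real.sqrt (∑ i, ((circ h).mulVec v i) ^ 2) ∧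
        Real.sqrt (∑ i, ((circ h).mulVec v i) ^ 2) ≤
          (1 + c) * Real.sqrt n * Real.sqrt (∑ i, v i ^ 2)) ∧
      ∀ v : ZMod n → ℝ,
        Real.sqrt (∑ i, ((circ h * (circ h).transpose - (n : ℝ) • 1).mulVec v i) ^ 2) ≤
          c * n * Real.sqrt (∑ i, v i ^ 2) := by
  have ha0 : 0 < min (c / 3) 1 := lt_min (by positivity) one_pos
  obtain ⟨n₀, h0⟩ := eventually_atTop.1 (hU (min (c / 3) 1) ha0)
  refine ⟨n₀, fun n _ hn => ?_⟩
  obtain ⟨s, hs, hx⟩ := h0 n hn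
  exact ⟨fun m => s m.val, fun j => hs _,
    almost_at ha0 (min_le_right _ _) (min_le_left _ _) hx⟩

end Vale.Agent.P033A
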