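import Vale.Agent.Lib.P110T.Forms

/-!
# P033: circulant sign matrices that are almost Hadamard

Corollary of the existence of ultraflat Littlewood polynomials.
-/

namespace Vale.Agent.P033A

open Finset
open scoped ComplexConjugate

variable {n : ℕ} [NeZero n]

/-- the unnormalised discrete Fourier transform -/
noncomputable def ft (v : ZMod n → ℂ) (k : ZMod n) : ℂ := ∑ j, v j * ZMod.stdAddChar (-(j * k))

theorem char_norm (x : ZMod n) : ‖(ZMod.stdAddChar x : ℂ)‖ = 1 := by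
  simp

theorem conj_char (x : ZMod n) : conj (ZMod.stdAddChar x : ℂ) = ZMod.stdAddChar (-x) := by
  rw [AddChar.map_neg_eq_conj]

theorem parseval (v : ZMod n → ℂ) : ∑ k, ‖ft v k‖ ^ 2 = n * ∑ j, ‖v j‖ ^ 2 := by
  have h1 : ((∑ k, ‖ft v k‖ ^ 2 : ℝ) : ℂ) = ((n * ∑ j, ‖v j‖ ^ 2 : ℝ) : ℂ) := by
    push_cast
    simp_rw [← Complex.mul_conj']
    have h2 : ∀ k, ft v k * conj (ft v k) =
        ∑ j, ∑ l, v j * conj (v l) * ZMod.stdAddChar (k * (l - j)) := by
      intro k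
      unfold ft
      rw [map_sum, Finset.sum_mul_sum]
      refine Finset.sum_congr rfl fun j _ => Finset.sum_congr rfl fun l _ => ?_
      rw [map_mul, conj_char, neg_neg]
      have h3 : k * (l - j) = -(j * k) + l * k := by ring
      rw [h3, AddChar.map_add_eq_mul]
      ring
    simp_rw [h2]
    rw [Finset.sum_comm]
    rw [Finset.mul_sum]
    refine Finset.sum_congr rfl fun j _ => ?_
    rw [Finset.sum_comm]
    rw [Finset.sum_eq_single j]
    · simp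
    · intro l _ hl
      rw [← Finset.mul_sum, AddChar.sum_mulShift _ (ZMod.isPrimitive_stdAddChar n), if_neg]
      · simp
      · exact sub_ne_zero.2 hl
    · simp
  exact_mod_cast h1

/-- The circulant matrix with first row `h`: the entry `(i, j)` is `h (j - i)`. -/
def circ (h : ZMod n → ℝ) : Matrix (ZMod n) (ZMod n) ℝ := Matrix.of fun i j => h (j - i)

theorem ft_circ (h v : ZMod n → ℝ) (k : ZMod n) :
    ft (fun i => (((circ h).mulVec v i : ℝ) : ℂ)) k =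
      ft (fun i => (v i : ℂ)) k * ∑ m, (h m : ℂ) * ZMod.stdAddChar (m * k) := by
  unfold ft
  rw [Finset.sum_mul_sum]
  have h1 : ∀ i, (((circ h).mulVec v i : ℝ) : ℂ) = ∑ j, (h (j - i) : ℂ) * v j := by
    intro i
    simp [circ, Matrix.mulVec, dotProduct]
  simp_rw [h1, Finset.sum_mul]
  rw [Finset.sum_comm]
  refine Finset.sum_congr rfl fun j _ => ?_
  rw [← Equiv.sum_comp (Equiv.subLeft j)]
  refine Finset.sum_congr rfl fun m _ => ?_
  simp only [Equiv.subLeft_apply]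
  have h3 : -((j - m) * k) = -(j * k) + m * k := by ring
  rw [sub_sub_cancel, h3, AddChar.map_add_eq_mul]
  ring

/-- the eigenvalue of the circulant matrix at `k` -/
noncomputable def ev (h : ZMod n → ℝ) (k : ZMod n) : ℂ := ∑ m, (h m : ℂ) * ZMod.stdAddChar (m * k)

theorem sum_sq (w : ZMod n → ℝ) : (n : ℝ) * ∑ i, w i ^ 2 =
    ∑ k, ‖ft (fun i => ((w i : ℝ) : ℂ)) k‖ ^ 2 := by
  rw [parseval]
  congr 1
  refine Finset.sum_congr rfl fun i _ => ?_
  rw [Complex.norm_real, Real.norm_eq_abs, sq_abs]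

theorem sum_sq_circ (h v : ZMod n → ℝ) : (n : ℝ) * ∑ i, ((circ h).mulVec v i) ^ 2 =
    ∑ k, ‖ft (fun i => (v i : ℂ)) k‖ ^ 2 * ‖ev h k‖ ^ 2 := by
  rw [sum_sq]
  refine Finset.sum_congr rfl fun k _ => ?_
  rw [ft_circ, norm_mul, mul_pow]
  rfl

theorem circ_bounds {h : ZMod n → ℝ} {a b : ℝ} (ha : 0 ≤ a)
    (H : ∀ k, a ≤ ‖ev h k‖ ∧ ‖ev h k‖ ≤ b) (v : ZMod n → ℝ) :
    a ^ 2 * ∑ i, v i ^ 2 ≤ ∑ i, ((circ h).mulVec v i) ^ 2 ∧
      ∑ i, ((circ h).mulVec v i) ^ 2 ≤ b ^ 2 * ∑ i, v i ^ 2 := by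
  have hn : (0 : ℝ) < n := by exact_mod_cast Nat.pos_of_ne_zero (NeZero.ne n)
  have h1 := sum_sq_circ h v
  have h2 := sum_sq v
  constructor
  · refine le_of_mul_le_mul_left ?_ hn
    rw [h1, show (n : ℝ) * (a ^ 2 * ∑ i, v i ^ 2) = a ^ 2 * (n * ∑ i, v i ^ 2) by ring, h2,
      Finset.mul_sum]
    refine Finset.sum_le_sum fun k _ => ?_
    rw [mul_comm]
    exact mul_le_mul_of_nonneg_left (pow_le_pow_left₀ ha (H k).1 2) (sq_nonneg _)
  · refine le_of_mul_le_mul_left ?_ hn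
    rw [h1, show (n : ℝ) * (b ^ 2 * ∑ i, v i ^ 2) = b ^ 2 * (n * ∑ i, v i ^ 2) by ring, h2,
      Finset.mul_sum]
    refine Finset.sum_le_sum fun k _ => ?_
    rw [mul_comm (b ^ 2)]
    exact mul_le_mul_of_nonneg_left (pow_le_pow_left₀ (norm_nonneg _) (H k).2 2) (sq_nonneg _)

/-- the transpose is circulant, too -/
theorem circ_transpose (h : ZMod n → ℝ) : (circ h).transpose = circ fun x => h (-x) := by
  ext i j
  simp [circ]

theorem ev_neg (h : ZMod n → ℝ) (k : ZMod n) : ev (fun x => h (-x)) k = conj (ev h k) := by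
  unfold ev
  rw [map_sum, ← Equiv.sum_comp (Equiv.neg (ZMod n))]
  refine Finset.sum_congr rfl fun m _ => ?_
  simp only [Equiv.neg_apply, neg_neg]
  rw [map_mul (starRingEnd ℂ), Complex.conj_ofReal, conj_char]
  congr 2
  ring

theorem ft_gram (h v : ZMod n → ℝ) (k : ZMod n) :
    ft (fun i => (((circ h * (circ h).transpose - (n : ℝ) • 1).mulVec v i : ℝ) : ℂ)) k =
      ft (fun i => (v i : ℂ)) k * ((‖ev h k‖ ^ 2 - n : ℝ) : ℂ) := by
  have h1 : ∀ i, (((circ h * (circ h).transpose - (n : ℝ) • 1).mulVec v i : ℝ) : ℂ) =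
      (((circ h).mulVec ((circ fun x => h (-x)).mulVec v) i : ℝ) : ℂ) - n * v i := by
    intro i
    rw [Matrix.sub_mulVec, ← circ_transpose, Matrix.mulVec_mulVec]
    simp [Matrix.smul_mulVec]
  have h2 : ft (fun i => (((circ h * (circ h).transpose - (n : ℝ) • 1).mulVec v i : ℝ) : ℂ)) k =
      ft (fun i => (((circ h).mulVec ((circ fun x => h (-x)).mulVec v) i : ℝ) : ℂ)) k -
        n * ft (fun i => (v i : ℂ)) k := by
    unfold ft
    simp_rw [h1]
    rw [Finset.mul_sum, ← Finset.sum_sub_distrib]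
    refine Finset.sum_congr rfl fun i _ => ?_
    ring
  have h3 : ev h k * conj (ev h k) = ((‖ev h k‖ ^ 2 : ℝ) : ℂ) := by
    rw [Complex.mul_conj']
    push_cast
    rfl
  rw [h2, ft_circ, ft_circ]
  change ft (fun i => (v i : ℂ)) k * ev (fun x => h (-x)) k * ev h k -
    n * ft (fun i => (v i : ℂ)) k = _
  rw [ev_neg, mul_assoc, mul_comm (conj (ev h k)), h3]
  push_cast
  ring

theorem gram_bound {h : ZMod n → ℝ} {d : ℝ} (H : ∀ k, |‖ev h k‖ ^ 2 - n| ≤ d)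
    (v : ZMod n → ℝ) :
    ∑ i, ((circ h * (circ h).transpose - (n : ℝ) • 1).mulVec v i) ^ 2 ≤
      d ^ 2 * ∑ i, v i ^ 2 := by
  have hn : (0 : ℝ) < n := by exact_mod_cast Nat.pos_of_ne_zero (NeZero.ne n)
  refine le_of_mul_le_mul_left ?_ hn
  rw [sum_sq, show (n : ℝ) * (d ^ 2 * ∑ i, v i ^ 2) = d ^ 2 * (n * ∑ i, v i ^ 2) by ring,
    sum_sq, Finset.mul_sum]
  refine Finset.sum_le_sum fun k _ => ?_
  rw [ft_gram, norm_mul, mul_pow, mul_comm (d ^ 2), Complex.norm_real, Real.norm_eq_abs]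
  exact mul_le_mul_of_nonneg_left (pow_le_pow_left₀ (abs_nonneg _) (H k) 2) (sq_nonneg _)

/-- the eigenvalues are values of the polynomial with coefficients `h` -/
theorem ev_eq (s : ℕ → ℝ) (k : ZMod n) : ev (fun m : ZMod n => s m.val) k =
    ∑ j ∈ Finset.range n, (s j : ℂ) * P110F.e1 ((j : ℝ) * ((k.val : ℝ) / n)) := by
  unfold ev
  have h1 : ∀ m : ZMod n, (ZMod.stdAddChar (m * k) : ℂ) =
      P110F.e1 ((m.val : ℝ) * ((k.val : ℝ) / n)) := by
    intro m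
    have h2 : m * k = (((m.val * k.val : ℕ) : ℤ) : ZMod n) := by
      push_cast
      rw [ZMod.natCast_zmod_val, ZMod.natCast_zmod_val]
    rw [h2, ZMod.stdAddChar_coe]
    unfold P110F.e1
    congr 1
    push_cast
    ring
  simp_rw [h1]
  obtain ⟨N, rfl⟩ : ∃ N, n = N + 1 := ⟨n - 1, by
    have := NeZero.ne n
    omega⟩
  rw [← Fin.sum_univ_eq_sum_range
    (fun j => (s j : ℂ) * P110F.e1 ((j : ℝ) * ((k.val : ℝ) / ((N + 1 : ℕ) : ℝ))))]
  rfl

theorem almost_hadamard (hU : P110T.Ultra) {c : ℝ} (hc : 0 < c) (N₀ : ℕ) :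
    ∃ (n : ℕ) (_ : NeZero n), N₀ ≤ n ∧ ∃ h : ZMod n → ℝ, (∀ j, h j = 1 ∨ h j = -1) ∧
      (∀ v : ZMod n → ℝ,
        (1 - c) * Real.sqrt n * Real.sqrt (∑ i, v i ^ 2) ≤
          Real.sqrt (∑ i, ((circ h).mulVec v i) ^ 2) ∧
        Real.sqrt (∑ i, ((circ h).mulVec v i) ^ 2) ≤
          (1 + c) * Real.sqrt n * Real.sqrt (∑ i, v i ^ 2)) ∧
      ∀ v : ZMod n → ℝ,
        Real.sqrt (∑ i, ((circ h * (circ h).transpose - (n : ℝ) • 1).mulVec v i) ^ 2) ≤
          c * n * Real.sqrt (∑ i, v i ^ 2) := by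
  set a : ℝ := min (c / 3) 1 with ha
  have ha0 : 0 < a := lt_min (by positivity) one_pos
  have ha1 : a ≤ 1 := min_le_right _ _
  have ha2 : a ≤ c / 3 := min_le_left _ _
  obtain ⟨n, hn, s, hs, hx⟩ := hU a ha0 (max N₀ 1)
  have hn1 : 1 ≤ n := (le_max_right _ _).trans hn
  have hz : NeZero n := ⟨by omega⟩
  have hsn : 0 ≤ Real.sqrt n := Real.sqrt_nonneg _
  have hsq : Real.sqrt n ^ 2 = n := Real.sq_sqrt (Nat.cast_nonneg _)
  have hn0 : (0 : ℝ) < n := by exact_mod_cast hn1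
  have hev : ∀ k : ZMod n, (1 - a) * Real.sqrt n ≤ ‖ev (fun m : ZMod n => s m.val) k‖ ∧
      ‖ev (fun m : ZMod n => s m.val) k‖ ≤ (1 + a) * Real.sqrt n := by
    intro k
    rw [ev_eq]
    exact hx _
  refine ⟨n, hz, (le_max_left _ _).trans hn, fun m => s m.val, fun j => hs _, fun v => ?_,
    fun v => ?_⟩
  · have h0 : 0 ≤ (1 - a) * Real.sqrt n := mul_nonneg (by linarith) hsn
    obtain ⟨h1, h2⟩ := circ_bounds h0 hev v
    have h3 := Real.sqrt_le_sqrt h1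
    have h4 := Real.sqrt_le_sqrt h2
    rw [Real.sqrt_mul (sq_nonneg _), Real.sqrt_sq h0] at h3
    rw [Real.sqrt_mul (sq_nonneg _), Real.sqrt_sq (mul_nonneg (by linarith) hsn)] at h4
    have h5 : 0 ≤ Real.sqrt (∑ i, v i ^ 2) := Real.sqrt_nonneg _
    have h6 : (1 - c) * Real.sqrt n ≤ (1 - a) * Real.sqrt n :=
      mul_le_mul_of_nonneg_right (by linarith) hsn
    have h7 : (1 + a) * Real.sqrt n ≤ (1 + c) * Real.sqrt n :=
      mul_le_mul_of_nonneg_right (by linarith) hsn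
    exact ⟨(mul_le_mul_of_nonneg_right h6 h5).trans h3,
      h4.trans (mul_le_mul_of_nonneg_right h7 h5)⟩
  · have h1 : ∀ k : ZMod n, |‖ev (fun m : ZMod n => s m.val) k‖ ^ 2 - n| ≤ c * n := by
      intro k
      obtain ⟨h2, h3⟩ := hev k
      have h4 : ((1 - a) * Real.sqrt n) ^ 2 ≤ ‖ev (fun m : ZMod n => s m.val) k‖ ^ 2 :=
        pow_le_pow_left₀ (mul_nonneg (by linarith) hsn) h2 2
      have h5 : ‖ev (fun m : ZMod n => s m.val) k‖ ^ 2 ≤ ((1 + a) * Real.sqrt n) ^ 2 :=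
        pow_le_pow_left₀ (norm_nonneg _) h3 2
      rw [mul_pow, hsq] at h4 h5
      have h6 : (1 + a) ^ 2 ≤ 1 + c := by nlinarith
      have h7 : 1 - c ≤ (1 - a) ^ 2 := by nlinarith
      have h8 := mul_le_mul_of_nonneg_right h6 hn0.le
      have h9 := mul_le_mul_of_nonneg_right h7 hn0.le
      rw [abs_le]
      constructor <;> linarith
    have h2 := Real.sqrt_le_sqrt (gram_bound h1 v)
    rw [Real.sqrt_mul (sq_nonneg _), Real.sqrt_sq (by positivity)] at h2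
    exact h2

end Vale.Agent.P033A
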